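import Mathlib
import Vale.Agent.Lib.P162.Defs
import Vale.Agent.Lib.P162.RDefs
import Vale.Agent.Lib.P162.helper57.Assembly

/-!
# P162, job R5: the new card rarely shares a coin with an old card

`pair_prob`: two prescribed tracked cards are partners at time `s` with probability at most
`2 ^ (-m)`; `new_bad_prob`: union bound over the `j` old cards.
-/

namespace Vale.Agent.Lib.P162.H7

open Finset BigOperators

/-- two of the tracked cards (`j` and `j'`) are partners at time `s` with probability at most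
`1 / 2 ^ m` -/
theorem pair_prob (h k : ℕ) [NeZero h] (x : Fin k → ZMod (2 * h)) (hx : Function.Injective x)
    (j j' : Fin k) (hjj : j ≠ j') (m s : ℕ) (hm : 2 ^ m ≤ h) (hs : m ≤ s) :
    ∑ z, (if z j' = z j + (h : ZMod (2 * h)) then (Kmat h k ^ s) x z else 0) ≤ 1 / 2 ^ m := by
  rw [← Finset.sum_filter]
  set P := univ.filter (fun w : Fin 2 → ZMod (2 * h) => w 1 = w 0 + (h : ZMod (2 * h))) with hP
  have hmaps : ∀ z ∈ univ.filter
      (fun z : Fin k → ZMod (2 * h) => z j' = z j + (h : ZMod (2 * h))),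
      (![z j, z j'] : Fin 2 → ZMod (2 * h)) ∈ P := by
    intro z hz
    rw [Finset.mem_filter] at hz
    rw [hP, Finset.mem_filter]
    refine ⟨Finset.mem_univ _, ?_⟩
    simpa using hz.2
  rw [← Finset.sum_fiberwise_of_maps_to hmaps]
  have h3 : ∀ w ∈ P,
      ∑ z ∈ (univ.filter
          (fun z : Fin k → ZMod (2 * h) => z j' = z j + (h : ZMod (2 * h)))).filter
          (fun z => (![z j, z j'] : Fin 2 → ZMod (2 * h)) = w), (Kmat h k ^ s) x z
        = (Kmat h 2 ^ s) ![x j, x j'] w := by
    intro w hw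
    rw [hP, Finset.mem_filter] at hw
    rw [← H5.lump_pair h k x j j' hjj s w]
    apply Finset.sum_congr _ (fun _ _ => rfl)
    ext z
    simp only [Finset.mem_filter, Finset.mem_univ, true_and]
    constructor
    · rintro ⟨_, h2⟩
      rw [← h2]
      simp
    · rintro ⟨ha, hb⟩
      refine ⟨?_, ?_⟩
      · rw [ha, hb]; exact hw.2
      · funext i
        fin_cases i
        · simpa using ha
        · simpa using hb
  rw [Finset.sum_congr rfl h3]
  have hxj : (![x j, x j'] : Fin 2 → ZMod (2 * h)) 0
      ≠ (![x j, x j'] : Fin 2 → ZMod (2 * h)) 1 := by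
    simp only [Matrix.cons_val_zero, Matrix.cons_val_one]
    exact fun hh => hjj (hx hh)
  exact H57.pair_partner h ![x j, x j'] hxj m s hm hs

/-- **Job R5** (exact statement of the pool job). -/
theorem new_bad_prob (h j : ℕ) [NeZero h] [DecidablePred (newBad h j)]
    (x : Fin (j + 1) → ZMod (2 * h)) (hx : Function.Injective x) (m s : ℕ) (hm : 2 ^ m ≤ h)
    (hs : m ≤ s) :
    ∑ z ∈ univ.filter (newBad h j), (Kmat h (j + 1) ^ s) x z ≤ (j : ℝ) / 2 ^ m := by
  have hnn : ∀ z, 0 ≤ (Kmat h (j + 1) ^ s) x z :=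
    fun z => H95.Kmat_pow_nonneg h (j + 1) s x z
  have h1 : ∑ z ∈ univ.filter (newBad h j), (Kmat h (j + 1) ^ s) x z
      ≤ ∑ z, ∑ i : Fin j,
          (if z i.succ = z 0 + (h : ZMod (2 * h)) then (Kmat h (j + 1) ^ s) x z else 0) := by
    rw [Finset.sum_filter]
    apply Finset.sum_le_sum
    intro z _
    have hterm : ∀ i ∈ (univ : Finset (Fin j)),
        0 ≤ (if z i.succ = z 0 + (h : ZMod (2 * h)) then (Kmat h (j + 1) ^ s) x z else 0) := by
      intro i _
      split_ifs
      · exact hnn z
      · exact le_refl _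
    by_cases hb : newBad h j z
    · rw [if_pos hb]
      by_cases hz : (Kmat h (j + 1) ^ s) x z = 0
      · have hsum := Finset.sum_nonneg hterm
        linarith
      · have hzinj := H95.Kmat_pow_support h (j + 1) (H36.move_injective h) x hx s z hz
        obtain ⟨i, hc⟩ := hb
        rw [H36.cast_eq_iff] at hc
        have hc' : z i.succ = z 0 + (h : ZMod (2 * h)) := by
          rcases hc with hc | hc
          · exact absurd (hzinj hc) (Fin.succ_ne_zero i)
          · exact hc
        have hle := Finset.single_le_sum hterm (Finset.mem_univ i)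
        rw [if_pos hc'] at hle
        exact hle
    · rw [if_neg hb]
      exact Finset.sum_nonneg hterm
  calc ∑ z ∈ univ.filter (newBad h j), (Kmat h (j + 1) ^ s) x z
      ≤ ∑ z, ∑ i : Fin j,
          (if z i.succ = z 0 + (h : ZMod (2 * h)) then (Kmat h (j + 1) ^ s) x z else 0) := h1
    _ = ∑ i : Fin j, ∑ z,
          (if z i.succ = z 0 + (h : ZMod (2 * h)) then (Kmat h (j + 1) ^ s) x z else 0) :=
        Finset.sum_comm
    _ ≤ ∑ _i : Fin j, (1 / 2 ^ m : ℝ) :=
        Finset.sum_le_sum (fun i _ =>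
          pair_prob h (j + 1) x hx 0 i.succ (Fin.succ_ne_zero i).symm m s hm hs)
    _ = (j : ℝ) / 2 ^ m := by
        rw [Finset.sum_const, Finset.card_univ, Fintype.card_fin, nsmul_eq_mul]
        ring

end Vale.Agent.Lib.P162.H7
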