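import Mathlib
import Vale.Agent.Lib.P162.Defs

/-!
# P162, job F: cards with pairwise distinct coins move independently

The set of coin vectors that move the tracked cards `z` to `y` is a product set
(`Fintype.piFinset`); its cardinality is the product of the numbers of admissible coin values.
-/

namespace Vale.Agent.Lib.P162.H7

open Finset BigOperators

/-- the admissible values of the coin with index `x` -/
def adm (h k : ℕ) (z y : Fin k → ZMod (2 * h)) (x : ZMod h) : Finset Bool :=
  univ.filter (fun b : Bool => ∀ j, (ZMod.cast (z j) : ZMod h) = x →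
    2 * z j + (if xor (decide (h ≤ (z j).val)) b then (1 : ZMod (2 * h)) else 0) = y j)

theorem filter_eq_pi (h k : ℕ) [NeZero h] (z y : Fin k → ZMod (2 * h)) :
    (univ.filter fun c : ZMod h → Bool => ∀ j, move h c (z j) = y j)
      = Fintype.piFinset (adm h k z y) := by
  ext c
  rw [Finset.mem_filter, Fintype.mem_piFinset]
  constructor
  · rintro ⟨-, hc⟩ x
    unfold adm
    rw [Finset.mem_filter]
    refine ⟨Finset.mem_univ _, ?_⟩
    intro j hx
    have hj := hc j
    unfold move at hj
    rw [hx] at hj
    exact hj
  · intro hc
    refine ⟨Finset.mem_univ _, fun j => ?_⟩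
    have hj := hc (ZMod.cast (z j))
    unfold adm at hj
    rw [Finset.mem_filter] at hj
    exact hj.2 j rfl

theorem adm_card (h k : ℕ) [NeZero h] (z y : Fin k → ZMod (2 * h))
    (hinj : Function.Injective (fun j => (ZMod.cast (z j) : ZMod h))) (j : Fin k) :
    ((adm h k z y (ZMod.cast (z j))).card : ℝ) = 2 * Wmat h (z j) (y j) := by
  have e : adm h k z y (ZMod.cast (z j)) = univ.filter (fun b : Bool =>
      if xor (decide (h ≤ (z j).val)) b then y j = 2 * z j + 1 else y j = 2 * z j) := by
    unfold adm
    apply Finset.filter_congr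
    intro b _
    constructor
    · intro hb
      have := hb j rfl
      split_ifs at this ⊢
      · exact this.symm
      · rw [add_zero] at this
        exact this.symm
    · intro hb j' hj'
      have hjj : j' = j := hinj hj'
      subst hjj
      split_ifs at hb ⊢
      · exact hb.symm
      · rw [add_zero]
        exact hb.symm
  rw [e, Finset.card_filter, Fintype.sum_bool]
  unfold Wmat
  push_cast
  cases decide (h ≤ (z j).val) <;> simp <;> split_ifs <;> norm_num

theorem adm_card_off (h k : ℕ) [NeZero h] (z y : Fin k → ZMod (2 * h)) (x : ZMod h)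
    (hx : x ∈ (univ.image fun j => (ZMod.cast (z j) : ZMod h))ᶜ) :
    ((adm h k z y x).card : ℝ) = 2 := by
  have e : adm h k z y x = univ := by
    unfold adm
    apply Finset.filter_true_of_mem
    intro b _ j hj
    exfalso
    rw [Finset.mem_compl] at hx
    exact hx (Finset.mem_image.mpr ⟨j, Finset.mem_univ _, hj⟩)
  rw [e]
  simp

/-- **Job F** (exact statement of the pool job). -/
theorem stepProb_free (h k : ℕ) [NeZero h] (z y : Fin k → ZMod (2 * h)) (hz : ¬ bad h k z) :
    stepProb h k z y = Wk h k z y := by
  have hinj : Function.Injective (fun j => (ZMod.cast (z j) : ZMod h)) := by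
    intro j j' e
    by_contra hne
    exact hz ⟨j, j', hne, e⟩
  have hk : k ≤ h := by
    have := Fintype.card_le_of_injective _ hinj
    simpa [ZMod.card] using this
  have hcard : ((univ.filter fun c : ZMod h → Bool => ∀ j, move h c (z j) = y j).card : ℝ)
      = (∏ j, (2 * Wmat h (z j) (y j))) * 2 ^ (h - k) := by
    rw [filter_eq_pi, Fintype.card_piFinset]
    rw [← Finset.prod_mul_prod_compl (univ.image fun j => (ZMod.cast (z j) : ZMod h))]
    rw [Finset.prod_image (fun a _ b _ e => hinj e)]
    rw [Nat.cast_mul, Nat.cast_prod, Nat.cast_prod]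
    congr 1
    · apply Finset.prod_congr rfl
      intro j _
      exact adm_card h k z y hinj j
    · rw [Finset.prod_congr rfl (adm_card_off h k z y), Finset.prod_const, Finset.card_compl,
        Finset.card_image_of_injective _ hinj]
      simp [ZMod.card]
  unfold stepProb Wk
  rw [hcard, Finset.prod_mul_distrib, Finset.prod_const, Finset.card_univ, Fintype.card_fin]
  have h2 : (2 : ℝ) ^ h = 2 ^ k * 2 ^ (h - k) := by
    rw [← pow_add]
    congr 1
    omega
  rw [h2]
  have key : ∀ (a b P : ℝ), a ≠ 0 → b ≠ 0 → a * P * b / (a * b) = P := by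
    intro a b P ha hb
    field_simp
  exact key _ _ _ (by positivity) (by positivity)

end Vale.Agent.Lib.P162.H7
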