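import Mathlib
import Vale.Agent.Lib.P162.Defs
import Vale.Agent.Lib.P162.RDefs
import Vale.Agent.Lib.P162.helper7.Free

/-!
# P162, job R3: a new card that shares no coin with the old cards moves independently

Same counting as in `Free.lean`: the admissible coin vectors form a product set; the coordinate
of the coin of the new card contributes the factor `2 * Wmat`, and the old cards do not
constrain it.
-/

namespace Vale.Agent.Lib.P162.H7

open Finset BigOperators

theorem card_bit (h : ℕ) [NeZero h] (p q : ZMod (2 * h)) :
    (((univ.filter fun b : Bool =>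
      2 * p + (if xor (decide (h ≤ p.val)) b then (1 : ZMod (2 * h)) else 0) = q).card : ℕ) : ℝ)
      = 2 * Wmat h p q := by
  have e : (univ.filter fun b : Bool =>
      2 * p + (if xor (decide (h ≤ p.val)) b then (1 : ZMod (2 * h)) else 0) = q)
      = univ.filter (fun b : Bool =>
          if xor (decide (h ≤ p.val)) b then q = 2 * p + 1 else q = 2 * p) := by
    apply Finset.filter_congr
    intro b _
    split_ifs
    · exact eq_comm
    · rw [add_zero]
      exact eq_comm
  rw [e, Finset.card_filter, Fintype.sum_bool]
  unfold Wmat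
  push_cast
  cases decide (h ≤ p.val) <;> simp <;> split_ifs <;> norm_num

/-- **Job R3** (exact statement of the pool job). -/
theorem step_new_free (h j : ℕ) [NeZero h] (z y : Fin (j + 1) → ZMod (2 * h))
    (hz : ¬ newBad h j z) :
    stepProb h (j + 1) z y = Wmat h (z 0) (y 0) * stepProb h j (Fin.tail z) (Fin.tail y) := by
  have hne : ∀ i : Fin j, (ZMod.cast (z i.succ) : ZMod h) ≠ ZMod.cast (z 0) := by
    intro i e
    exact hz ⟨i, e.symm⟩
  have hoff : ∀ x ∈ (univ : Finset (ZMod h)).erase (ZMod.cast (z 0)),
      ((adm h (j + 1) z y x).card : ℝ) = ((adm h j (Fin.tail z) (Fin.tail y) x).card : ℝ) := by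
    intro x hx
    have hx' : x ≠ ZMod.cast (z 0) := (Finset.mem_erase.mp hx).1
    have e : adm h (j + 1) z y x = adm h j (Fin.tail z) (Fin.tail y) x := by
      unfold adm
      apply Finset.filter_congr
      intro b _
      rw [Fin.forall_fin_succ]
      constructor
      · intro hb
        exact hb.2
      · intro hb
        exact ⟨fun e => absurd e.symm hx', hb⟩
    rw [e]
  have h1 : ((adm h (j + 1) z y (ZMod.cast (z 0))).card : ℝ) = 2 * Wmat h (z 0) (y 0) := by
    have e : adm h (j + 1) z y (ZMod.cast (z 0)) = univ.filter fun b : Bool =>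
        2 * z 0 + (if xor (decide (h ≤ (z 0).val)) b then (1 : ZMod (2 * h)) else 0) = y 0 := by
      unfold adm
      apply Finset.filter_congr
      intro b _
      rw [Fin.forall_fin_succ]
      constructor
      · intro hb
        exact hb.1 rfl
      · intro hb
        exact ⟨fun _ => hb, fun i e => absurd e (hne i)⟩
    rw [e]
    exact card_bit h (z 0) (y 0)
  have h0 : ((adm h j (Fin.tail z) (Fin.tail y) (ZMod.cast (z 0))).card : ℝ) = 2 := by
    have e : adm h j (Fin.tail z) (Fin.tail y) (ZMod.cast (z 0)) = univ := by
      unfold adm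
      apply Finset.filter_true_of_mem
      intro b _ i e
      exact absurd e (hne i)
    rw [e]
    simp
  have hA : ((univ.filter fun c : ZMod h → Bool => ∀ i, move h c (z i) = y i).card : ℝ)
      = 2 * Wmat h (z 0) (y 0) * ∏ x ∈ (univ : Finset (ZMod h)).erase (ZMod.cast (z 0)),
          ((adm h j (Fin.tail z) (Fin.tail y) x).card : ℝ) := by
    rw [filter_eq_pi, Fintype.card_piFinset, Nat.cast_prod,
      ← Finset.mul_prod_erase univ _ (Finset.mem_univ (ZMod.cast (z 0) : ZMod h)), h1,
      Finset.prod_congr rfl hoff]
  have hB : ((univ.filter fun c : ZMod h → Bool =>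
        ∀ i, move h c (Fin.tail z i) = Fin.tail y i).card : ℝ)
      = 2 * ∏ x ∈ (univ : Finset (ZMod h)).erase (ZMod.cast (z 0)),
          ((adm h j (Fin.tail z) (Fin.tail y) x).card : ℝ) := by
    rw [filter_eq_pi, Fintype.card_piFinset, Nat.cast_prod,
      ← Finset.mul_prod_erase univ _ (Finset.mem_univ (ZMod.cast (z 0) : ZMod h)), h0]
  unfold stepProb
  rw [hA, hB]
  ring

end Vale.Agent.Lib.P162.H7
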