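import Mathlib
import Vale.Agent.Lib.P162.Defs

/-!
# P162, job H: two cards are rarely partners

`pair_partner_of` proves the partner lemma from the statements of the other jobs
(taken as explicit hypotheses, in exactly the form of the skeleton).
-/

namespace Vale.Agent.Lib.P162.H7

open Finset BigOperators

section stoch

variable {S : Type*} [Fintype S] [DecidableEq S]

theorem pow_nonneg_entries (A : Matrix S S ℝ) (hA : ∀ z y, 0 ≤ A z y) (m : ℕ) :
    ∀ z y, 0 ≤ (A ^ m) z y := by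
  induction m with
  | zero =>
    intro z y
    rw [pow_zero, Matrix.one_apply]
    split_ifs <;> norm_num
  | succ m ih =>
    intro z y
    rw [pow_succ, Matrix.mul_apply]
    exact Finset.sum_nonneg fun v _ => mul_nonneg (ih z v) (hA v y)

theorem pow_row_sum (A : Matrix S S ℝ) (hA1 : ∀ z, ∑ y, A z y = 1) (m : ℕ) :
    ∀ z, ∑ y, (A ^ m) z y = 1 := by
  induction m with
  | zero =>
    intro z
    simp [Matrix.one_apply]
  | succ m ih =>
    intro z
    simp only [pow_succ, Matrix.mul_apply]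
    rw [Finset.sum_comm]
    simp only [← Finset.mul_sum, hA1, mul_one]
    exact ih z

omit [DecidableEq S] in
theorem sum_mul_filter (A B : Matrix S S ℝ) (P : Finset S) (z : S) :
    ∑ w ∈ P, (A * B) z w = ∑ v, A z v * ∑ w ∈ P, B v w := by
  simp only [Matrix.mul_apply, Finset.mul_sum]
  exact Finset.sum_comm

end stoch

/-- a nonzero entry of the one-step matrix is witnessed by a coin vector -/
theorem Kmat_ne_zero {h : ℕ} [NeZero h] {k : ℕ} {z y : Fin k → ZMod (2 * h)}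
    (hzy : Kmat h k z y ≠ 0) : ∃ c : ZMod h → Bool, ∀ j, move h c (z j) = y j := by
  by_contra hne
  push Not at hne
  apply hzy
  have he : (univ.filter fun c : ZMod h → Bool => ∀ j, move h c (z j) = y j) = ∅ := by
    apply Finset.filter_eq_empty_iff.mpr
    intro c _ hc
    obtain ⟨j, hj⟩ := hne c
    exact hj (hc j)
  unfold Kmat stepProb
  rw [he]
  simp

theorem Kmat_nonneg (h k : ℕ) [NeZero h] (z y : Fin k → ZMod (2 * h)) : 0 ≤ Kmat h k z y := by
  unfold Kmat stepProb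
  exact div_nonneg (Nat.cast_nonneg _) (by positivity)

theorem move_eq (h : ℕ) (c : ZMod h → Bool) (p : ZMod (2 * h)) :
    ∃ b : ℕ, b ≤ 1 ∧ move h c p = 2 * p + (b : ZMod (2 * h)) := by
  unfold move
  split_ifs
  · exact ⟨1, le_refl 1, by simp⟩
  · exact ⟨0, by norm_num, by simp⟩

/-- the two cards are at cyclic distance `j` with `1 ≤ j < 2 ^ r` -/
def near (h : ℕ) (r : ℕ) (w : Fin 2 → ZMod (2 * h)) : Prop :=
  ∃ j : ℕ, 1 ≤ j ∧ j < 2 ^ r ∧
    (w 1 = w 0 + (j : ZMod (2 * h)) ∨ w 0 = w 1 + (j : ZMod (2 * h)))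

theorem near_step (h : ℕ) (r : ℕ) (c : ZMod h → Bool) (z y : Fin 2 → ZMod (2 * h))
    (hz : near h r z) (hy : ∀ j, move h c (z j) = y j) : near h (r + 1) y := by
  obtain ⟨j, hj1, hj2, hj⟩ := hz
  obtain ⟨b0, hb0, e0⟩ := move_eq h c (z 0)
  obtain ⟨b1, hb1, e1⟩ := move_eq h c (z 1)
  rw [hy 0] at e0
  rw [hy 1] at e1
  rcases hj with hj | hj
  · refine ⟨2 * j + b1 - b0, by omega, by rw [pow_succ]; omega, Or.inl ?_⟩
    have hc : ((2 * j + b1 - b0 : ℕ) : ZMod (2 * h))
        = 2 * (j : ZMod (2 * h)) + (b1 : ZMod (2 * h)) - (b0 : ZMod (2 * h)) := by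
      rw [Nat.cast_sub (by omega)]
      push_cast
      ring
    rw [hc, e1, e0, hj]
    ring
  · refine ⟨2 * j + b0 - b1, by omega, by rw [pow_succ]; omega, Or.inr ?_⟩
    have hc : ((2 * j + b0 - b1 : ℕ) : ZMod (2 * h))
        = 2 * (j : ZMod (2 * h)) + (b0 : ZMod (2 * h)) - (b1 : ZMod (2 * h)) := by
      rw [Nat.cast_sub (by omega)]
      push_cast
      ring
    rw [hc, e1, e0, hj]
    ring

theorem two_mul_h (h : ℕ) : (2 : ZMod (2 * h)) * (h : ZMod (2 * h)) = 0 := by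
  have := ZMod.natCast_self (2 * h)
  push_cast at this
  exact this

theorem partner_step (h : ℕ) [NeZero h] (c : ZMod h → Bool) (z y : Fin 2 → ZMod (2 * h))
    (hz : z 1 = z 0 + (h : ZMod (2 * h))) (hy : ∀ j, move h c (z j) = y j) : near h 1 y := by
  have hpos : 0 < h := Nat.pos_of_ne_zero (NeZero.ne h)
  have h0 := hy 0
  have h1 := hy 1
  rw [hz] at h1
  unfold move at h0 h1
  have hcast : (ZMod.cast (z 0 + (h : ZMod (2 * h))) : ZMod h) = ZMod.cast (z 0) := by
    rw [ZMod.cast_add (Dvd.intro_left 2 rfl), ZMod.cast_natCast (Dvd.intro_left 2 rfl),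
      ZMod.natCast_self, add_zero]
  have hval : (z 0 + (h : ZMod (2 * h))).val = ((z 0).val + h) % (2 * h) := by
    rw [ZMod.val_add, ZMod.val_natCast, Nat.add_mod_mod]
  have hlt : (z 0).val < 2 * h := ZMod.val_lt _
  rw [hcast, hval] at h1
  have e2 : (2 : ZMod (2 * h)) * (z 0 + (h : ZMod (2 * h))) = 2 * z 0 := by
    rw [mul_add, two_mul_h, add_zero]
  rw [e2] at h1
  by_cases hv : h ≤ (z 0).val
  · have hv' : ¬ h ≤ ((z 0).val + h) % (2 * h) := by
      have : ((z 0).val + h) % (2 * h) = (z 0).val - h := by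
        rw [Nat.mod_eq_sub_mod (by omega), Nat.mod_eq_of_lt (by omega)]
        omega
      omega
    cases hcc : c (ZMod.cast (z 0))
    · -- bit of card 0 is 1, bit of card 1 is 0
      refine ⟨1, le_refl 1, by norm_num, Or.inr ?_⟩
      simp [hv, hv', hcc] at h0 h1
      rw [← h0, ← h1]
      simp
    · refine ⟨1, le_refl 1, by norm_num, Or.inl ?_⟩
      simp [hv, hv', hcc] at h0 h1
      rw [← h0, ← h1]
      simp
  · have hv' : h ≤ ((z 0).val + h) % (2 * h) := by
      rw [Nat.mod_eq_of_lt (by omega)]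
      omega
    cases hcc : c (ZMod.cast (z 0))
    · refine ⟨1, le_refl 1, by norm_num, Or.inl ?_⟩
      simp [hv, hv', hcc] at h0 h1
      rw [← h0, ← h1]
      simp
    · refine ⟨1, le_refl 1, by norm_num, Or.inr ?_⟩
      simp [hv, hv', hcc] at h0 h1
      rw [← h0, ← h1]
      simp

theorem near_not_partner (h : ℕ) [NeZero h] (r : ℕ) (hr : 2 ^ r ≤ h) (w : Fin 2 → ZMod (2 * h))
    (hw : near h r w) : ¬ (w 1 = w 0 + (h : ZMod (2 * h))) := by
  have hpos : 0 < h := Nat.pos_of_ne_zero (NeZero.ne h)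
  obtain ⟨j, hj1, hj2, hj⟩ := hw
  intro hp
  rcases hj with hj | hj
  · have e : ((h : ℕ) : ZMod (2 * h)) = (j : ZMod (2 * h)) :=
      add_left_cancel (hp.symm.trans hj)
    rw [ZMod.natCast_eq_natCast_iff'] at e
    rw [Nat.mod_eq_of_lt (by omega), Nat.mod_eq_of_lt (by omega)] at e
    omega
  · have e : ((j + h : ℕ) : ZMod (2 * h)) = 0 := by
      push_cast
      have h2 : w 1 + ((j : ZMod (2 * h)) + (h : ZMod (2 * h))) = w 1 := by
        rw [← add_assoc, ← hj]
        exact hp.symm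
      exact add_eq_left.mp h2
    rw [ZMod.natCast_eq_zero_iff] at e
    have := Nat.le_of_dvd (by omega) e
    omega

theorem pow_partner_support (h : ℕ) [NeZero h] (z : Fin 2 → ZMod (2 * h))
    (hz : z 1 = z 0 + (h : ZMod (2 * h))) (r : ℕ) (y : Fin 2 → ZMod (2 * h))
    (hy : (Kmat h 2 ^ (r + 1)) z y ≠ 0) : near h (r + 1) y := by
  induction r generalizing y with
  | zero =>
    rw [zero_add, pow_one] at hy
    obtain ⟨c, hc⟩ := Kmat_ne_zero hy
    exact partner_step h c z y hz hc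
  | succ r ih =>
    rw [pow_succ, Matrix.mul_apply] at hy
    obtain ⟨v, -, hv⟩ := Finset.exists_ne_zero_of_sum_ne_zero hy
    have h1 : (Kmat h 2 ^ (r + 1)) z v ≠ 0 := left_ne_zero_of_mul hv
    have h2 : Kmat h 2 v y ≠ 0 := right_ne_zero_of_mul hv
    obtain ⟨c, hc⟩ := Kmat_ne_zero h2
    exact near_step h (r + 1) c v y (ih v h1) hc

theorem partner_sum_zero (h : ℕ) [NeZero h] (z : Fin 2 → ZMod (2 * h))
    (hz : z 1 = z 0 + (h : ZMod (2 * h))) (r : ℕ) (hr : 2 ^ (r + 1) ≤ h) :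
    ∑ w ∈ univ.filter (fun w : Fin 2 → ZMod (2 * h) => w 1 = w 0 + (h : ZMod (2 * h))),
        (Kmat h 2 ^ (r + 1)) z w = 0 := by
  apply Finset.sum_eq_zero
  intro w hw
  rw [Finset.mem_filter] at hw
  by_contra hne
  exact near_not_partner h (r + 1) hr w (pow_partner_support h z hz r w hne) hw.2

/-- **Job H1** (exact statement of the pool job): two partner states are never `r` steps apart
when `1 ≤ r` and `2 ^ r ≤ h`. -/
theorem partner_gap (h : ℕ) [NeZero h] (r : ℕ) (hr1 : 1 ≤ r) (hr : 2 ^ r ≤ h)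
    (w v : Fin 2 → ZMod (2 * h)) (hw : w 1 = w 0 + (h : ZMod (2 * h)))
    (hv : v 1 = v 0 + (h : ZMod (2 * h))) : (Kmat h 2 ^ r) w v = 0 := by
  obtain ⟨r', rfl⟩ : ∃ r', r = r' + 1 := ⟨r - 1, by omega⟩
  by_contra hne
  exact near_not_partner h (r' + 1) hr v (pow_partner_support h w hw r' v hne) hv

theorem Wmat_nonneg (h : ℕ) [NeZero h] (p q : ZMod (2 * h)) : 0 ≤ Wmat h p q := by
  unfold Wmat
  exact add_nonneg (by split_ifs <;> norm_num) (by split_ifs <;> norm_num)

theorem Wmat_row_sum (h : ℕ) [NeZero h] (p : ZMod (2 * h)) : ∑ q, Wmat h p q = 1 := by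
  unfold Wmat
  rw [Finset.sum_add_distrib]
  simp
  norm_num

theorem Wk_nonneg (h k : ℕ) [NeZero h] (z y : Fin k → ZMod (2 * h)) : 0 ≤ Wk h k z y := by
  unfold Wk
  exact Finset.prod_nonneg fun j _ => Wmat_nonneg h _ _

/-- off the diagonal and off the partner set the two cards use different coins -/
theorem not_bad_of (h : ℕ) [NeZero h]
    (h_cast : ∀ u v : ZMod (2 * h),
      (ZMod.cast u : ZMod h) = ZMod.cast v ↔ v = u ∨ v = u + (h : ZMod (2 * h)))
    (z : Fin 2 → ZMod (2 * h)) (hz : z 0 ≠ z 1)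
    (hp : ¬ z 1 = z 0 + (h : ZMod (2 * h))) : ¬ bad h 2 z := by
  have key : ¬ ((ZMod.cast (z 0) : ZMod h) = ZMod.cast (z 1)) := by
    rw [h_cast]
    push Not
    exact ⟨fun e => hz e.symm, hp⟩
  rintro ⟨j, j', hjj, e⟩
  fin_cases j <;> fin_cases j'
  · exact hjj rfl
  · exact key e
  · exact key e.symm
  · exact hjj rfl

/-- the one-step image of an off-diagonal pair is off the diagonal -/
theorem step_offdiag (h : ℕ) [NeZero h]
    (h_inj : ∀ c : ZMod h → Bool, Function.Injective (move h c))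
    (z v : Fin 2 → ZMod (2 * h)) (hz : z 0 ≠ z 1) (hv : Kmat h 2 z v ≠ 0) : v 0 ≠ v 1 := by
  obtain ⟨c, hc⟩ := Kmat_ne_zero hv
  intro e
  apply hz
  apply h_inj c
  rw [hc 0, hc 1, e]

theorem pow_offdiag (h : ℕ) [NeZero h]
    (h_inj : ∀ c : ZMod h → Bool, Function.Injective (move h c))
    (z : Fin 2 → ZMod (2 * h)) (hz : z 0 ≠ z 1) (t : ℕ) (v : Fin 2 → ZMod (2 * h))
    (hv : (Kmat h 2 ^ t) z v ≠ 0) : v 0 ≠ v 1 := by
  induction t generalizing v with
  | zero =>
    rw [pow_zero, Matrix.one_apply] at hv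
    by_cases e : z = v
    · rw [← e]; exact hz
    · rw [if_neg e] at hv; exact absurd rfl hv
  | succ t ih =>
    rw [pow_succ, Matrix.mul_apply] at hv
    obtain ⟨u, -, hu⟩ := Finset.exists_ne_zero_of_sum_ne_zero hv
    exact step_offdiag h h_inj u v (ih u (left_ne_zero_of_mul hu)) (right_ne_zero_of_mul hu)

/-- Claim (r): from an off-diagonal state the true pair chain hits the partner set after `r`
steps (`2 ^ r ≤ h`) with probability at most that of the free chain. -/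
theorem claim_r (h : ℕ) [NeZero h]
    (h_free : ∀ z y : Fin 2 → ZMod (2 * h), ¬ bad h 2 z → stepProb h 2 z y = Wk h 2 z y)
    (h_inj : ∀ c : ZMod h → Bool, Function.Injective (move h c))
    (h_cast : ∀ u v : ZMod (2 * h),
      (ZMod.cast u : ZMod h) = ZMod.cast v ↔ v = u ∨ v = u + (h : ZMod (2 * h)))
    (r : ℕ) (hr : 2 ^ r ≤ h) (z : Fin 2 → ZMod (2 * h)) (hz : z 0 ≠ z 1) :
    ∑ w ∈ univ.filter (fun w : Fin 2 → ZMod (2 * h) => w 1 = w 0 + (h : ZMod (2 * h))),
        (Kmat h 2 ^ r) z w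
      ≤ ∑ w ∈ univ.filter (fun w : Fin 2 → ZMod (2 * h) => w 1 = w 0 + (h : ZMod (2 * h))),
        (Wk h 2 ^ r) z w := by
  induction r generalizing z with
  | zero => rw [pow_zero, pow_zero]
  | succ r ih =>
    by_cases hp : z 1 = z 0 + (h : ZMod (2 * h))
    · rw [partner_sum_zero h z hp r hr]
      exact Finset.sum_nonneg fun w _ => pow_nonneg_entries _ (Wk_nonneg h 2) _ _ _
    · have hrow : ∀ v, Kmat h 2 z v = Wk h 2 z v :=
        fun v => h_free z v (not_bad_of h h_cast z hz hp)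
      have hr' : 2 ^ r ≤ h := (Nat.pow_le_pow_right (by norm_num) (Nat.le_succ r)).trans hr
      rw [pow_succ', pow_succ', sum_mul_filter, sum_mul_filter]
      apply Finset.sum_le_sum
      intro v _
      rw [hrow v]
      by_cases hv : Wk h 2 z v = 0
      · rw [hv, zero_mul, zero_mul]
      · have hv' : Kmat h 2 z v ≠ 0 := by rw [hrow v]; exact hv
        exact mul_le_mul_of_nonneg_left (ih hr' v (step_offdiag h h_inj z v hz hv'))
          (Wk_nonneg h 2 z v)

/-- the free pair chain hits the partner set with probability at most `2 ^ (-r)` -/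
theorem Wk_partner_le (h : ℕ) [NeZero h]
    (h_prod : ∀ (m : ℕ) (z y : Fin 2 → ZMod (2 * h)),
      (Wk h 2 ^ m) z y = ∏ j, (Wmat h ^ m) (z j) (y j))
    (h_le : ∀ m : ℕ, 2 ^ m ≤ 2 * h → ∀ p y : ZMod (2 * h), (Wmat h ^ m) p y ≤ 1 / 2 ^ m)
    (r : ℕ) (hr : 2 ^ r ≤ 2 * h) (z : Fin 2 → ZMod (2 * h)) :
    ∑ w ∈ univ.filter (fun w : Fin 2 → ZMod (2 * h) => w 1 = w 0 + (h : ZMod (2 * h))),
        (Wk h 2 ^ r) z w ≤ 1 / 2 ^ r := by
  have e : ∀ w, (Wk h 2 ^ r) z w = (Wmat h ^ r) (z 0) (w 0) * (Wmat h ^ r) (z 1) (w 1) := by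
    intro w
    have := h_prod r z w
    rw [Fin.prod_univ_two] at this
    exact this
  rw [Finset.sum_congr rfl (fun w _ => e w)]
  have hnn : ∀ p q, 0 ≤ (Wmat h ^ r) p q := pow_nonneg_entries _ (Wmat_nonneg h) r
  calc ∑ w ∈ univ.filter (fun w : Fin 2 → ZMod (2 * h) => w 1 = w 0 + (h : ZMod (2 * h))),
          (Wmat h ^ r) (z 0) (w 0) * (Wmat h ^ r) (z 1) (w 1)
      ≤ ∑ w ∈ univ.filter (fun w : Fin 2 → ZMod (2 * h) => w 1 = w 0 + (h : ZMod (2 * h))),
          (Wmat h ^ r) (z 0) (w 0) * (1 / 2 ^ r) := by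
        apply Finset.sum_le_sum
        intro w _
        exact mul_le_mul_of_nonneg_left (h_le r hr _ _) (hnn _ _)
    _ = (∑ w ∈ univ.filter (fun w : Fin 2 → ZMod (2 * h) => w 1 = w 0 + (h : ZMod (2 * h))),
          (Wmat h ^ r) (z 0) (w 0)) * (1 / 2 ^ r) := by rw [Finset.sum_mul]
    _ = 1 * (1 / 2 ^ r) := by
        congr 1
        rw [← pow_row_sum (Wmat h) (Wmat_row_sum h) r (z 0)]
        refine Finset.sum_nbij' (fun w => w 0) (fun u => ![u, u + (h : ZMod (2 * h))])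
          (fun _ _ => Finset.mem_univ _) ?_ ?_ ?_ ?_
        · intro u _
          simp
        · intro w hw
          rw [Finset.mem_filter] at hw
          funext i
          fin_cases i
          · simp
          · simp [hw.2]
        · intro u _
          simp
        · intro w _
          rfl
    _ = 1 / 2 ^ r := one_mul _

/-- **Job H** (partner lemma), from the statements of jobs C, D, E, F. -/
theorem pair_partner_of (h : ℕ) [NeZero h]
    (h_free : ∀ z y : Fin 2 → ZMod (2 * h), ¬ bad h 2 z → stepProb h 2 z y = Wk h 2 z y)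
    (h_prod : ∀ (m : ℕ) (z y : Fin 2 → ZMod (2 * h)),
      (Wk h 2 ^ m) z y = ∏ j, (Wmat h ^ m) (z j) (y j))
    (h_le : ∀ m : ℕ, 2 ^ m ≤ 2 * h → ∀ p y : ZMod (2 * h), (Wmat h ^ m) p y ≤ 1 / 2 ^ m)
    (h_inj : ∀ c : ZMod h → Bool, Function.Injective (move h c))
    (h_sum : ∀ z : Fin 2 → ZMod (2 * h), ∑ y, stepProb h 2 z y = 1)
    (h_cast : ∀ u v : ZMod (2 * h),
      (ZMod.cast u : ZMod h) = ZMod.cast v ↔ v = u ∨ v = u + (h : ZMod (2 * h)))
    (w0 : Fin 2 → ZMod (2 * h)) (hw : w0 0 ≠ w0 1)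
    (m s : ℕ) (hm : 2 ^ m ≤ h) (hs : m ≤ s) :
    ∑ w ∈ univ.filter (fun w : Fin 2 → ZMod (2 * h) => w 1 = w 0 + (h : ZMod (2 * h))),
        (Kmat h 2 ^ s) w0 w ≤ 1 / 2 ^ m := by
  obtain ⟨t, rfl⟩ := Nat.exists_eq_add_of_le hs
  rw [add_comm, pow_add, sum_mul_filter]
  have hKnn : ∀ z y, 0 ≤ (Kmat h 2 ^ t) z y := pow_nonneg_entries _ (Kmat_nonneg h 2) t
  have hK1 : ∀ z, ∑ y, (Kmat h 2 ^ t) z y = 1 := pow_row_sum _ h_sum t
  calc ∑ v, (Kmat h 2 ^ t) w0 v *
          ∑ w ∈ univ.filter (fun w : Fin 2 → ZMod (2 * h) => w 1 = w 0 + (h : ZMod (2 * h))),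
            (Kmat h 2 ^ m) v w
      ≤ ∑ v, (Kmat h 2 ^ t) w0 v * (1 / 2 ^ m) := by
        apply Finset.sum_le_sum
        intro v _
        by_cases hv : (Kmat h 2 ^ t) w0 v = 0
        · rw [hv, zero_mul, zero_mul]
        · have hv01 : v 0 ≠ v 1 := pow_offdiag h h_inj w0 hw t v hv
          exact mul_le_mul_of_nonneg_left
            ((claim_r h h_free h_inj h_cast m hm v hv01).trans
              (Wk_partner_le h h_prod h_le m (hm.trans (by omega)) v)) (hKnn _ _)
    _ = 1 / 2 ^ m := by rw [← Finset.sum_mul, hK1, one_mul]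

end Vale.Agent.Lib.P162.H7
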